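import Vale.Agent.P272.K.T4.Stmt
import Vale.Agent.P272.HY.Blocks
import Vale.Agent.P272.XT.Defs
import Vale.Agent.P272.KOD.Defs

/-!
# P272, top skeleton: Kobayashi's conjecture from the named blocks

The hypotheses of `q1_of` are exactly the blocks which are not yet discharged.
-/

open scoped Manifold ContDiff ComplexOrder Topology ENNReal
open MeasureTheory Metric Set Filter

noncomputable section

namespace Vale.Agent.P272.TOP

open Vale.Agent.P272.K Vale.Agent.P272.HY Vale.Agent.P272.XT Vale.Agent.P272.KOD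

/-- **Q1** (Kobayashi's conjecture): every compact connected hyperbolic Kähler manifold of
dimension `n ≥ 1` has ample canonical bundle. -/
def Q1 : Prop := ∀ (n : ℕ) (_ : 1 ≤ n) (X : Type) [TopologicalSpace X] [T2Space X]
    [CompactSpace X] [ConnectedSpace X] [ChartedSpace (Cm n) X] [IsManifold 𝓘(ℂ, Cm n) ω X]
    (_ : BrodyHyperbolic n X) (w : Chart n X → Cm n → Matrix (Fin n) (Fin n) ℂ) (_ : IsKahler w),
    AmpleCanonical n X

/-- `∀ n X, P n X` over all compact Hausdorff complex manifolds -/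
def AllX (P : ∀ (n : ℕ) (X : Type) [TopologicalSpace X] [ChartedSpace (Cm n) X], Prop) : Prop :=
  ∀ (n : ℕ) (X : Type) [TopologicalSpace X] [T2Space X] [CompactSpace X]
    [ChartedSpace (Cm n) X] [IsManifold 𝓘(ℂ, Cm n) ω X], P n X

/-- the conclusion of Theorem A in the form needed by the Aubin-Yau step -/
def AYStep : Prop := ∀ (n : ℕ) (_ : 1 ≤ n) (X : Type) [TopologicalSpace X] [T2Space X]
    [CompactSpace X] [ConnectedSpace X] [ChartedSpace (Cm n) X] [IsManifold 𝓘(ℂ, Cm n) ω X]
    (w : Chart n X → Cm n → Matrix (Fin n) (Fin n) ℂ) (_ : IsKahler w)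
    (_ : ∃ c : ℝ, 0 < c ∧ ∀ w' : Chart n X → Cm n → Matrix (Fin n) (Fin n) ℂ, IsKahler w' →
      RicGe w' → ∀ e x, At e x → (w' e (e x) - (c : ℂ) • w e (e x)).PosSemidef),
    ∃ φ : Chart n X → Cm n → ℝ, IsCanonicalMetric φ ∧
      ∀ e x, At e x → (cHess (φ e) (e x)).PosDef

section
variable {n : ℕ} {X : Type} [TopologicalSpace X] [ChartedSpace (Cm n) X]

lemma smul_ofReal_matrix (c : ℝ) (A : Matrix (Fin n) (Fin n) ℂ) : (c : ℂ) • A = c • A := by
  ext i j
  simp

/-- Theorem A from finite extinction and small discs -/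
theorem thmA_of (hext : XEXT n X) (hsd : XSD n X) : ThmA n X := by
  intro w hw M hM hbd
  obtain ⟨L, hL, hLf⟩ := hext w hw M hM hbd
  refine ⟨2 / L, by positivity, fun w' hw' hric e x hx => ?_⟩
  have h := hsd w w' hw hw'.toIsHermitian L hL (fun f hf hT => hLf w' hw' hric f hf hT) e x hx
  have h2 := h.smul (α := ℝ) (show (0 : ℝ) ≤ 2 / L by positivity)
  have e1 : (2 / L : ℝ) • (((L / 2 : ℝ) : ℂ) • w' e (e x) - w e (e x)) =
      w' e (e x) - ((2 / L : ℝ) : ℂ) • w e (e x) := by
    rw [smul_ofReal_matrix, smul_ofReal_matrix, smul_sub, smul_smul,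
      show (2 / L * (L / 2) : ℝ) = 1 by field_simp, one_smul]
  rwa [e1] at h2

end

/-- positivity of the canonical bundle from the blocks -/
theorem xam_of (h2 : AllX B2) (hA : AllX ThmA) (hAY : AYStep) : XAM := by
  intro n hn X _ _ _ _ _ _ hX w hw
  obtain ⟨M, hM, hMf⟩ := h2 n X w hw.toIsHermitian hX
  exact hAY n hn X w hw (hA n X w hw.toIsHermitian M hM hMf)

/-- **Kobayashi's conjecture from the blocks.** -/
theorem q1_of (h2 : AllX B2) (hext : AllX XEXT) (hsd : AllX XSD) (hAY : AYStep)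
    (hKey : KeyStmt) (hPeak : PeakStmt) (hSoft : SoftStmt) : Q1 := by
  intro n hn X _ _ _ _ _ _ hX w hw
  exact kodaira_of hKey hPeak hSoft n X
    (xam_of h2 (fun n X => thmA_of (hext n X) (hsd n X)) hAY n hn X hX w hw)

end Vale.Agent.P272.TOP
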