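import Vale.Agent.P272.TOP.Final
import Vale.Agent.P272.XT.Final
import Vale.Agent.P272.XT.ExtOf
import Vale.Agent.P272.XT.Small
import Vale.Agent.P272.KOD.Main

/-!
# P272: Kobayashi's conjecture from the block `XRA`
-/

open scoped Manifold ContDiff ComplexOrder Topology ENNReal
open MeasureTheory Metric Set Filter

noncomputable section

namespace Vale.Agent.P272.TOP

open Vale.Agent.P272.K Vale.Agent.P272.HY Vale.Agent.P272.XT Vale.Agent.P272.KOD

/-- Theorem A from `XRA` -/
theorem thmA_of_xra (hra : AllX XRA) : AllX ThmA := by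
  intro n X _ _ _ _ _
  exact thmA_of (xext_of n X (hra n X)) (xsd n X)

/-- positivity of the canonical bundle from `XRA` -/
theorem xam_of_xra (hra : AllX XRA) : XAM :=
  xam fun n X _ _ _ _ _ _ => thmA_of_xra hra n X

/-- **Kobayashi's conjecture** from `XRA` -/
theorem q1_of_xra (hra : AllX XRA) : Q1 := by
  intro n hn X _ _ _ _ _ _ hX w hw
  exact kodaira n X (xam_of_xra hra n hn X hX w hw)

end Vale.Agent.P272.TOP
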