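import Vale.Agent.P272.TOP.Main
import Vale.Agent.P272.XT.RAG2
import Vale.Agent.P272.XT.X11
import Vale.Agent.P272.XT.X13
import Vale.Agent.P272.XT.X7
import Vale.Agent.P272.BD.VarX
import Vale.Agent.P272.GEO.B9
import Vale.Agent.P272.PB.B13a

/-!
# P272: Kobayashi's conjecture

`xra` discharges the last block. `thmA` is the uniform Schwarz lemma: on a compact manifold all of
whose holomorphic discs satisfy `|f'(0)|² ≤ M`, every Kähler metric `w'` with `Ric(w') ≥ -w'`
satisfies `w' ≥ c w`. `xam` is the positivity of the canonical bundle and `q1` is its ampleness.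
-/

open scoped Manifold ContDiff ComplexOrder Topology ENNReal
open MeasureTheory Metric Set Filter

noncomputable section

namespace Vale.Agent.P272.TOP

open Vale.Agent.P272.K Vale.Agent.P272.HY Vale.Agent.P272.XT Vale.Agent.P272.KOD

/-- the cost estimate -/
theorem xra : AllX XRA := by
  intro n X _ _ _ _ _
  exact RAG.xra_of BD.x56 (GEO.b9 n X) (x11a n X) (x11b n X) (x13 n X) (x7 n X) (PB.b13a n X)

/-- **Theorem A**, the uniform Schwarz lemma -/
theorem thmA : AllX ThmA := thmA_of_xra xra

/-- **Positivity of the canonical bundle** of every compact connected hyperbolic Kähler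
manifold -/
theorem xam : XAM := xam_of_xra xra

/-- **Kobayashi's conjecture**: every compact connected hyperbolic Kähler manifold has ample
canonical bundle. -/
theorem q1 : Q1 := q1_of_xra xra

end Vale.Agent.P272.TOP
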